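import Mathlib

/-!
# Counting the non-isolated points of nested separated sets

For nested finite sets `D 0 ⊇ D 1 ⊇ ...` in a pseudometric space, with the points of `D j`
pairwise at least `r0 * 2 ^ j` apart, the number of points of `D i` having another point of `D i`
within `20 * r0 * 2 ^ i` is at most twice the number of points of `D i` that are no longer in
`D (i + 6)`.  Summed over all levels this is at most `12` times the size of `D 0`.
-/

namespace Vale.Agent.H5

open Finset

/-- Telescoping bound: for a nonincreasing sequence of natural numbers, the sum of the drops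
over six steps is at most six times the first term. -/
theorem sum_sub_shift_le (a : ℕ → ℕ) (ha : ∀ i, a (i + 1) ≤ a i) (m : ℕ) :
    ∑ i ∈ Finset.range m, (a i - a (i + 6)) ≤ 6 * a 0 := by
  have hanti : Antitone a := antitone_nat_of_succ_le ha
  have key : ∀ m, ∑ i ∈ Finset.range m, (a i - a (i + 6))
      + (a m + a (m + 1) + a (m + 2) + a (m + 3) + a (m + 4) + a (m + 5))
      = a 0 + a 1 + a 2 + a 3 + a 4 + a 5 := by
    intro m
    induction m with
    | zero => simp
    | succ m ih =>
      rw [Finset.sum_range_succ]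
      have h6 : a (m + 6) ≤ a m := hanti (by omega)
      have e1 : m + 1 + 1 = m + 2 := by omega
      have e2 : m + 1 + 2 = m + 3 := by omega
      have e3 : m + 1 + 3 = m + 4 := by omega
      have e4 : m + 1 + 4 = m + 5 := by omega
      have e5 : m + 1 + 5 = m + 6 := by omega
      rw [e1, e2, e3, e4, e5]
      omega
  have h1 : a 1 ≤ a 0 := hanti (by omega)
  have h2 : a 2 ≤ a 0 := hanti (by omega)
  have h3 : a 3 ≤ a 0 := hanti (by omega)
  have h4 : a 4 ≤ a 0 := hanti (by omega)
  have h5 : a 5 ≤ a 0 := hanti (by omega)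
  have := key m
  omega

variable {V : Type*} [PseudoMetricSpace V]

/-- **Counting lemma.**  Nested finite sets `D i`, the points of `D j` pairwise at least
`r0 * 2 ^ j` apart.  The points of `D i` that have another point of `D i` within
`20 * r0 * 2 ^ i` number at most twice `card (D i) - card (D (i + 6))`. -/
theorem net_count [DecidableEq V] (D : ℕ → Finset V) (r0 : ℝ) (hr0 : 0 < r0)
    (hD : ∀ i, D (i + 1) ⊆ D i)
    (hsep : ∀ j, ∀ x ∈ D j, ∀ y ∈ D j, x ≠ y → r0 * 2 ^ j ≤ dist x y) (i : ℕ) :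
    ((D i).filter (fun x => ∃ y ∈ D i, y ≠ x ∧ dist x y ≤ 20 * r0 * 2 ^ i)).card
      ≤ 2 * ((D i).card - (D (i + 6)).card) := by
  classical
  set Ui := (D i).filter (fun x => ∃ y ∈ D i, y ≠ x ∧ dist x y ≤ 20 * r0 * 2 ^ i) with hUi
  have hsub : D (i + 6) ⊆ D i := by
    have : ∀ k, D (i + k) ⊆ D i := by
      intro k
      induction k with
      | zero => exact subset_rfl
      | succ k ih => exact (hD (i + k)).trans ih
    exact this 6
  set K := D i \ D (i + 6) with hK
  have hKcard : K.card = (D i).card - (D (i + 6)).card := Finset.card_sdiff_of_subset hsub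
  have hpos : (0:ℝ) < r0 * 2 ^ i := by positivity
  have h64 : r0 * 2 ^ (i + 6) = 64 * (r0 * 2 ^ i) := by rw [pow_add]; ring
  have hpart : ∀ x ∈ Ui.filter (fun x => x ∈ D (i + 6)),
      ∃ y ∈ K, dist x y ≤ 20 * r0 * 2 ^ i := by
    intro x hx
    obtain ⟨hxU, hxS⟩ := Finset.mem_filter.mp hx
    obtain ⟨hxD, y, hyD, hyx, hd⟩ := Finset.mem_filter.mp hxU
    refine ⟨y, Finset.mem_sdiff.mpr ⟨hyD, fun hyS => ?_⟩, hd⟩
    have := hsep (i + 6) x hxS y hyS (Ne.symm hyx)
    rw [h64] at this
    nlinarith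
  choose! φ hφK hφd using hpart
  have hinj : Set.InjOn φ (Ui.filter (fun x => x ∈ D (i + 6)) : Finset V) := by
    intro x hx x' hx' hxx
    by_contra hne
    have hxS := (Finset.mem_filter.mp hx).2
    have hx'S := (Finset.mem_filter.mp hx').2
    have h1 := hφd x hx
    have h2 := hφd x' hx'
    rw [← hxx] at h2
    have := hsep (i + 6) x hxS x' hx'S hne
    rw [h64] at this
    have tri := dist_triangle x (φ x) x'
    rw [dist_comm (φ x) x'] at tri
    nlinarith
  have hA : (Ui.filter (fun x => x ∈ D (i + 6))).card ≤ K.card :=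
    Finset.card_le_card_of_injOn φ (fun x hx => hφK x hx) hinj
  have hB : (Ui.filter (fun x => ¬ x ∈ D (i + 6))).card ≤ K.card := by
    apply Finset.card_le_card
    intro x hx
    obtain ⟨hxU, hxS⟩ := Finset.mem_filter.mp hx
    exact Finset.mem_sdiff.mpr ⟨(Finset.mem_filter.mp hxU).1, hxS⟩
  have hsplit := Finset.card_filter_add_card_filter_not (s := Ui) (fun x => x ∈ D (i + 6))
  rw [← hKcard]
  omega

/-- Summed counting lemma: over all levels below `m`, the non-isolated points number at most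
`12 * card (D 0)`. -/
theorem net_count_sum [DecidableEq V] (D : ℕ → Finset V) (r0 : ℝ) (hr0 : 0 < r0)
    (hD : ∀ i, D (i + 1) ⊆ D i)
    (hsep : ∀ j, ∀ x ∈ D j, ∀ y ∈ D j, x ≠ y → r0 * 2 ^ j ≤ dist x y) (m : ℕ) :
    ∑ i ∈ Finset.range m,
        ((D i).filter (fun x => ∃ y ∈ D i, y ≠ x ∧ dist x y ≤ 20 * r0 * 2 ^ i)).card
      ≤ 12 * (D 0).card := by
  have h1 : ∀ i ∈ Finset.range m,
      ((D i).filter (fun x => ∃ y ∈ D i, y ≠ x ∧ dist x y ≤ 20 * r0 * 2 ^ i)).card
        ≤ 2 * ((D i).card - (D (i + 6)).card) :=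
    fun i _ => net_count D r0 hr0 hD hsep i
  have h2 := sum_sub_shift_le (fun i => (D i).card) (fun i => Finset.card_le_card (hD i)) m
  calc ∑ i ∈ Finset.range m,
        ((D i).filter (fun x => ∃ y ∈ D i, y ≠ x ∧ dist x y ≤ 20 * r0 * 2 ^ i)).card
      ≤ ∑ i ∈ Finset.range m, 2 * ((D i).card - (D (i + 6)).card) := Finset.sum_le_sum h1
    _ = 2 * ∑ i ∈ Finset.range m, ((D i).card - (D (i + 6)).card) := by rw [Finset.mul_sum]
    _ ≤ 2 * (6 * (D 0).card) := Nat.mul_le_mul_left 2 h2
    _ = 12 * (D 0).card := by ring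

end Vale.Agent.H5
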