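import Vale.Agent.H5.SingleScale
import Vale.Agent.H5.NetCount

/-!
# Weighted domination of finite metric spaces at linear cost

Every finite set `X` of points of a pseudometric space with pairwise positive distances carries a
weighted edge list (endpoints in `X`, distinct, positive gains) of cost at most
`(1 + 24 * ⌈2 * 10 ^ p⌉ * 160 ^ p) * |X|` that controls every pair of points of `X` within
their distance.  The construction: nested maximal separated sets with parent links (gain one),
and at every scale the single-scale lemma for the pairs of surviving points at comparable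
distance; the counting lemma bounds the total number of vertices used over all scales.
-/

namespace Vale.Agent.H5

open Finset

variable {V : Type*} [PseudoMetricSpace V]

/-- A maximal `r`-separated subset of a finite set: it is `r`-separated and every point of the
set is at distance less than `r` from it. -/
theorem exists_max_sep [DecidableEq V] (S : Finset V) (r : ℝ) (hr : 0 < r) :
    ∃ Q : Finset V, Q ⊆ S ∧ (∀ x ∈ Q, ∀ y ∈ Q, x ≠ y → r ≤ dist x y) ∧
      ∀ x ∈ S, ∃ y ∈ Q, dist x y < r := by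
  classical
  let good : Finset (Finset V) :=
    S.powerset.filter (fun Q => ∀ x ∈ Q, ∀ y ∈ Q, x ≠ y → r ≤ dist x y)
  have hne : good.Nonempty := ⟨∅, by simp [good]⟩
  obtain ⟨Q, hQ, hmax⟩ := good.exists_max_image Finset.card hne
  have hQ' := Finset.mem_filter.mp hQ
  refine ⟨Q, Finset.mem_powerset.mp hQ'.1, hQ'.2, ?_⟩
  intro x hx
  by_cases hxQ : x ∈ Q
  · exact ⟨x, hxQ, by simpa using hr⟩
  · by_contra hcon
    push Not at hcon
    have hgood : insert x Q ∈ good := by
      refine Finset.mem_filter.mpr ⟨Finset.mem_powerset.mpr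
        (Finset.insert_subset hx (Finset.mem_powerset.mp hQ'.1)), ?_⟩
      intro a ha b hb hab
      rcases Finset.mem_insert.mp ha with hax | haQ
      · rcases Finset.mem_insert.mp hb with hbx | hbQ
        · exact absurd (hax.trans hbx.symm) hab
        · rw [hax]; exact hcon b hbQ
      · rcases Finset.mem_insert.mp hb with hbx | hbQ
        · rw [hbx, dist_comm]; exact hcon a haQ
        · exact hQ'.2 a haQ b hbQ hab
    have := hmax _ hgood
    rw [Finset.card_insert_of_notMem hxQ] at this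
    omega

/-- Nested separated sets with parent maps: `D 0 = X`, `D (i + 1)` is a maximal
`r0 * 2 ^ (i + 1)`-separated subset of `D i`, and `par i` sends each point of `D i` to a point
of `D (i + 1)` at distance less than `r0 * 2 ^ (i + 1)`, fixing the points of `D (i + 1)`. -/
theorem exists_nets [DecidableEq V] (X : Finset V) (r0 : ℝ) (hr0 : 0 < r0)
    (hX : ∀ x ∈ X, ∀ y ∈ X, x ≠ y → r0 ≤ dist x y) :
    ∃ (D : ℕ → Finset V) (par : ℕ → V → V),
      D 0 = X ∧ (∀ i, D (i + 1) ⊆ D i) ∧
      (∀ j, ∀ x ∈ D j, ∀ y ∈ D j, x ≠ y → r0 * 2 ^ j ≤ dist x y) ∧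
      (∀ i, ∀ x ∈ D i, par i x ∈ D (i + 1) ∧ dist x (par i x) < r0 * 2 ^ (i + 1)) ∧
      (∀ i, ∀ x ∈ D (i + 1), par i x = x) := by
  classical
  have hstep : ∀ (i : ℕ) (S : Finset V), ∃ Q : Finset V, Q ⊆ S ∧
      (∀ x ∈ Q, ∀ y ∈ Q, x ≠ y → r0 * 2 ^ (i + 1) ≤ dist x y) ∧
      ∀ x ∈ S, ∃ y ∈ Q, dist x y < r0 * 2 ^ (i + 1) :=
    fun i S => exists_max_sep S _ (by positivity)
  choose next hnext_sub hnext_sep hnext_cov using hstep
  let D : ℕ → Finset V := fun i => Nat.rec X (fun i Di => next i Di) i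
  have hDs : ∀ i, D (i + 1) = next i (D i) := fun i => rfl
  have hpar : ∀ i, ∀ x ∈ D i, ∃ y ∈ D (i + 1), dist x y < r0 * 2 ^ (i + 1) ∧
      (x ∈ D (i + 1) → y = x) := by
    intro i x hx
    by_cases hx1 : x ∈ D (i + 1)
    · have hpos : (0:ℝ) < r0 * 2 ^ (i + 1) := by positivity
      exact ⟨x, hx1, by simpa using hpos, fun _ => rfl⟩
    · obtain ⟨y, hy, hd⟩ := hnext_cov i (D i) x hx
      exact ⟨y, hy, hd, fun h => absurd h hx1⟩
  choose! par hparD hpard hparfix using hpar
  refine ⟨D, par, rfl, fun i => hnext_sub i (D i), ?_,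
    fun i x hx => ⟨hparD i x hx, hpard i x hx⟩, ?_⟩
  · intro j
    cases j with
    | zero =>
      intro x hx y hy hxy
      have := hX x hx y hy hxy
      simpa using this
    | succ j => exact hnext_sep j (D j)
  · intro i x hx
    exact hparfix i x (hnext_sub i (D i) hx) hx

/-- The iterated parent: the ancestor of a point at level `i`. -/
def anc (par : ℕ → V → V) : ℕ → V → V
  | 0, x => x
  | i + 1, x => par i (anc par i x)

/-- The parent links of the first `m` levels, as weighted edges of gain one. -/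
noncomputable def treeEdges [DecidableEq V] (D : ℕ → Finset V) (par : ℕ → V → V) (m : ℕ) :
    List (V × V × ℝ) :=
  (List.range m).flatMap (fun i => (D i \ D (i + 1)).toList.map (fun x => (x, par i x, (1:ℝ))))

omit [PseudoMetricSpace V] in
theorem cost_flatMap {ι : Type*} (p : ℝ) (L : List ι) (f : ι → List (V × V × ℝ)) :
    cost p (L.flatMap f) = (L.map (fun i => cost p (f i))).sum := by
  induction L with
  | nil => simp [cost]
  | cons a L ih => simp [List.flatMap_cons, cost_append, ih]

omit [PseudoMetricSpace V] in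
theorem cost_treeEdges_le [DecidableEq V] (p : ℝ) (D : ℕ → Finset V) (par : ℕ → V → V)
    (hD : ∀ i, D (i + 1) ⊆ D i) (m : ℕ) :
    cost p (treeEdges D par m) ≤ (D 0).card := by
  have h1 : ∀ m : ℕ, cost p (treeEdges D par m) + (D m).card = (D 0).card := by
    intro m
    induction m with
    | zero => simp [treeEdges, cost]
    | succ m ih =>
      have hstep : cost p (treeEdges D par (m + 1))
          = cost p (treeEdges D par m) + ((D m \ D (m + 1)).card : ℝ) := by
        unfold treeEdges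
        rw [List.range_succ, List.flatMap_append, cost_append]
        congr 1
        simp only [List.flatMap_cons, List.flatMap_nil, List.append_nil]
        have := cost_map_const (V := V) p 1 (D m \ D (m + 1)).toList (fun x => x) (par m)
        rw [Finset.length_toList, Real.one_rpow, mul_one] at this
        exact this
      have hc : ((D m \ D (m + 1)).card : ℝ) = (D m).card - (D (m + 1)).card := by
        rw [Finset.card_sdiff_of_subset (hD m), Nat.cast_sub (Finset.card_le_card (hD m))]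
      rw [hstep, hc]
      linarith
  have := h1 m
  have h2 : (0:ℝ) ≤ ((D m).card : ℝ) := Nat.cast_nonneg _
  linarith

omit [PseudoMetricSpace V] in
theorem anc_mem (D : ℕ → Finset V) (par : ℕ → V → V)
    (hpar : ∀ i, ∀ x ∈ D i, par i x ∈ D (i + 1)) {x : V} (hx : x ∈ D 0) (i : ℕ) :
    anc par i x ∈ D i := by
  induction i with
  | zero => exact hx
  | succ i ih => exact hpar i _ ih

theorem controls_anc [DecidableEq V] (D : ℕ → Finset V) (par : ℕ → V → V) (r0 : ℝ)
    (hpar : ∀ i, ∀ x ∈ D i, par i x ∈ D (i + 1) ∧ dist x (par i x) < r0 * 2 ^ (i + 1))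
    (hfix : ∀ i, ∀ x ∈ D (i + 1), par i x = x) (m : ℕ) {x : V} (hx : x ∈ D 0) (i : ℕ)
    (hi : i ≤ m) :
    Controls (treeEdges D par m) x (anc par i x) (r0 * (2 ^ (i + 1) - 2)) := by
  induction i with
  | zero =>
    have : r0 * (2 ^ (0 + 1) - 2) = 0 := by norm_num
    rw [this]
    exact Controls.refl _ _
  | succ i ih =>
    have h1 := ih (by omega)
    have ha : anc par i x ∈ D i := anc_mem D par (fun i x hx => (hpar i x hx).1) hx i
    have hstep : Controls (treeEdges D par m) (anc par i x) (anc par (i + 1) x)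
        (r0 * 2 ^ (i + 1)) := by
      by_cases h2 : anc par i x ∈ D (i + 1)
      · have : anc par (i + 1) x = anc par i x := hfix i _ h2
        rw [this]
        refine (Controls.refl _ _).mono (fun _ h => h) ?_
        have := (hpar i _ ha).2
        exact le_trans dist_nonneg this.le
      · have hmem : (anc par i x, par i (anc par i x), (1:ℝ)) ∈ treeEdges D par m := by
          unfold treeEdges
          rw [List.mem_flatMap]
          refine ⟨i, List.mem_range.mpr (by omega), ?_⟩
          exact List.mem_map.mpr ⟨anc par i x,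
            Finset.mem_toList.mpr (Finset.mem_sdiff.mpr ⟨ha, h2⟩), rfl⟩
        have := controls_of_mem (l := r0 * 2 ^ (i + 1)) one_pos hmem (hpar i _ ha).2.le
        rw [div_one] at this
        exact this
    refine (h1.trans hstep).mono (fun _ h => h) (le_of_eq ?_)
    ring

theorem dist_anc_le (D : ℕ → Finset V) (par : ℕ → V → V) (r0 : ℝ)
    (hpar : ∀ i, ∀ x ∈ D i, par i x ∈ D (i + 1) ∧ dist x (par i x) < r0 * 2 ^ (i + 1))
    {x : V} (hx : x ∈ D 0) (i : ℕ) :
    dist x (anc par i x) ≤ r0 * (2 ^ (i + 1) - 2) := by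
  induction i with
  | zero =>
    have : r0 * (2 ^ (0 + 1) - 2) = 0 := by norm_num
    rw [this]
    simp [anc]
  | succ i ih =>
    have ha : anc par i x ∈ D i := anc_mem D par (fun i x hx => (hpar i x hx).1) hx i
    have h1 := (hpar i _ ha).2
    have h2 := dist_triangle x (anc par i x) (par i (anc par i x))
    have h3 : r0 * (2 ^ (i + 1 + 1) - 2) = r0 * (2 ^ (i + 1) - 2) + r0 * 2 ^ (i + 1) := by ring
    rw [h3]
    show dist x (par i (anc par i x)) ≤ _
    linarith

omit [PseudoMetricSpace V] in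
theorem treeEdges_mem [DecidableEq V] (D : ℕ → Finset V) (par : ℕ → V → V) (m : ℕ)
    {e : V × V × ℝ} (he : e ∈ treeEdges D par m) :
    ∃ i, ∃ x ∈ D i \ D (i + 1), e = (x, par i x, (1:ℝ)) := by
  unfold treeEdges at he
  obtain ⟨i, _, hi⟩ := List.mem_flatMap.mp he
  obtain ⟨x, hx, rfl⟩ := List.mem_map.mp hi
  exact ⟨i, x, Finset.mem_toList.mp hx, rfl⟩

theorem sum_map_range (f : ℕ → ℝ) (m : ℕ) :
    ((List.range m).map f).sum = ∑ i ∈ Finset.range m, f i := by
  induction m with
  | zero => simp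
  | succ m ih => rw [List.range_succ, List.map_append, List.sum_append, ih,
      Finset.sum_range_succ]; simp

/-- **Weighted domination at linear cost.**  For every finite set `X` of points of a
pseudometric space with pairwise positive distances there is a weighted edge list with positive
gains, endpoints in `X` and distinct, of cost at most
`(1 + 24 * ⌈2 * 10 ^ p⌉ * 160 ^ p) * |X|`, controlling every pair of points of `X` within
their distance. -/
theorem exists_dominating [DecidableEq V] (p : ℝ) (X : Finset V)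
    (hX : ∀ x ∈ X, ∀ y ∈ X, x ≠ y → 0 < dist x y) :
    ∃ E : List (V × V × ℝ), (∀ e ∈ E, 0 < e.2.2) ∧
      (∀ e ∈ E, e.1 ∈ X ∧ e.2.1 ∈ X ∧ e.1 ≠ e.2.1) ∧
      (E.map (fun e => e.2.2 ^ p)).sum
        ≤ (1 + 24 * (⌈2 * (10:ℝ) ^ p⌉₊ : ℝ) * (160:ℝ) ^ p) * X.card ∧
      ∀ u ∈ X, ∀ v ∈ X, Controls E u v (dist u v) := by
  classical
  have hδ : ∃ δ : ℝ, 0 < δ ∧ ∀ x ∈ X, ∀ y ∈ X, x ≠ y → δ ≤ dist x y := by
    let P2 := (X ×ˢ X).filter (fun q : V × V => q.1 ≠ q.2)
    by_cases hne : P2.Nonempty
    · obtain ⟨q, hq, hmin⟩ := P2.exists_min_image (fun q => dist q.1 q.2) hne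
      have hq' := Finset.mem_filter.mp hq
      have hqX := Finset.mem_product.mp hq'.1
      refine ⟨dist q.1 q.2, hX _ hqX.1 _ hqX.2 hq'.2, ?_⟩
      intro x hx y hy hxy
      exact hmin (x, y) (Finset.mem_filter.mpr ⟨Finset.mem_product.mpr ⟨hx, hy⟩, hxy⟩)
    · refine ⟨1, one_pos, ?_⟩
      intro x hx y hy hxy
      exact absurd ⟨(x, y), Finset.mem_filter.mpr ⟨Finset.mem_product.mpr ⟨hx, hy⟩, hxy⟩⟩ hne
  obtain ⟨δ, hδ0, hδ⟩ := hδ
  have hB : ∃ B : ℝ, ∀ x ∈ X, ∀ y ∈ X, dist x y ≤ B := by
    refine ⟨∑ q ∈ X ×ˢ X, dist q.1 q.2, ?_⟩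
    intro x hx y hy
    have hmem : (x, y) ∈ X ×ˢ X := Finset.mem_product.mpr ⟨hx, hy⟩
    exact Finset.single_le_sum (f := fun q : V × V => dist q.1 q.2) (fun q _ => dist_nonneg) hmem
  obtain ⟨B, hB⟩ := hB
  set r0 : ℝ := δ / 16 with hr0def
  have hr0 : 0 < r0 := by positivity
  obtain ⟨m, hm⟩ := pow_unbounded_of_one_lt (B / (8 * r0)) (one_lt_two : (1:ℝ) < 2)
  obtain ⟨D, par, hD0, hDsub, hDsep, hpar, hfix⟩ := exists_nets X r0 hr0
    (fun x hx y hy hxy => le_trans (by rw [hr0def]; linarith) (hδ x hx y hy hxy))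
  have hDX : ∀ i, D i ⊆ X := by
    intro i
    induction i with
    | zero => rw [hD0]
    | succ i ih => exact (hDsub i).trans ih
  let Uset : ℕ → Finset V := fun i =>
    (D i).filter (fun x => ∃ y ∈ D i, y ≠ x ∧ dist x y ≤ 20 * r0 * 2 ^ i)
  let Gset : ℕ → Finset (V × V) := fun i =>
    ((D i) ×ˢ (D i)).filter (fun q => q.1 ≠ q.2 ∧ dist q.1 q.2 ≤ 20 * r0 * 2 ^ i)
  have hlev : ∀ i, ∃ E : List (V × V × ℝ), (∀ e ∈ E, 0 < e.2.2) ∧
      (∀ e ∈ E, e.1 ∈ Uset i ∧ e.2.1 ∈ Uset i) ∧
      cost p E ≤ 2 * (⌈2 * (10:ℝ) ^ p⌉₊ : ℝ) * (160:ℝ) ^ p * (Uset i).card ∧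
      ∀ e ∈ Gset i, Controls E e.1 e.2 (8 * (20 * r0 * 2 ^ i) / 160) := by
    intro i
    refine single_scale_mem p (Uset i) (Gset i) ?_ (20 * r0 * 2 ^ i) 160 ?_ (by norm_num)
    · intro e he
      have he' := Finset.mem_filter.mp he
      have heD := Finset.mem_product.mp he'.1
      refine ⟨Finset.mem_filter.mpr ⟨heD.1, e.2, heD.2, Ne.symm he'.2.1, he'.2.2⟩,
        Finset.mem_filter.mpr ⟨heD.2, e.1, heD.1, he'.2.1, ?_⟩⟩
      rw [dist_comm]; exact he'.2.2
    · intro e he
      exact (Finset.mem_filter.mp he).2.2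
  choose Elev hElevpos hElevmem hElevcost hElevctl using hlev
  have hUD : ∀ i, Uset i ⊆ D i := fun i => Finset.filter_subset _ _
  let T := treeEdges D par m
  let E0 : List (V × V × ℝ) := T ++ (List.range m).flatMap Elev
  have hE0pos : ∀ e ∈ E0, 0 < e.2.2 := by
    intro e he
    rcases List.mem_append.mp he with he | he
    · obtain ⟨i, x, _, rfl⟩ := treeEdges_mem D par m he
      exact one_pos
    · obtain ⟨i, _, hi⟩ := List.mem_flatMap.mp he
      exact hElevpos i e hi
  have hE0mem : ∀ e ∈ E0, e.1 ∈ X ∧ e.2.1 ∈ X := by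
    intro e he
    rcases List.mem_append.mp he with he | he
    · obtain ⟨i, x, hx, rfl⟩ := treeEdges_mem D par m he
      have hxD := (Finset.mem_sdiff.mp hx).1
      exact ⟨hDX i hxD, hDX (i + 1) (hpar i x hxD).1⟩
    · obtain ⟨i, _, hi⟩ := List.mem_flatMap.mp he
      exact ⟨hDX i (hUD i (hElevmem i e hi).1), hDX i (hUD i (hElevmem i e hi).2)⟩
  have hXc : (0:ℝ) ≤ (X.card : ℝ) := Nat.cast_nonneg _
  have h160 : (0:ℝ) < (160:ℝ) ^ p := Real.rpow_pos_of_pos (by norm_num) p
  have hE0cost : cost p E0 ≤ (1 + 24 * (⌈2 * (10:ℝ) ^ p⌉₊ : ℝ) * (160:ℝ) ^ p) * X.card := by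
    have hT : cost p T ≤ (X.card : ℝ) := by
      have := cost_treeEdges_le p D par hDsub m
      rwa [hD0] at this
    have hL : cost p ((List.range m).flatMap Elev)
        ≤ 2 * (⌈2 * (10:ℝ) ^ p⌉₊ : ℝ) * (160:ℝ) ^ p * (12 * (X.card : ℝ)) := by
      rw [cost_flatMap, sum_map_range]
      have hsum := net_count_sum D r0 hr0 hDsub hDsep m
      rw [hD0] at hsum
      have hsumR : (∑ i ∈ Finset.range m, ((Uset i).card : ℝ)) ≤ 12 * (X.card : ℝ) := by
        have : ((∑ i ∈ Finset.range m, (Uset i).card : ℕ) : ℝ) ≤ ((12 * X.card : ℕ) : ℝ) :=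
          Nat.cast_le.mpr hsum
        push_cast at this
        exact this
      calc ∑ i ∈ Finset.range m, cost p (Elev i)
          ≤ ∑ i ∈ Finset.range m,
              2 * (⌈2 * (10:ℝ) ^ p⌉₊ : ℝ) * (160:ℝ) ^ p * ((Uset i).card : ℝ) :=
            Finset.sum_le_sum (fun i _ => hElevcost i)
        _ = 2 * (⌈2 * (10:ℝ) ^ p⌉₊ : ℝ) * (160:ℝ) ^ p
              * ∑ i ∈ Finset.range m, ((Uset i).card : ℝ) := by rw [Finset.mul_sum]
        _ ≤ 2 * (⌈2 * (10:ℝ) ^ p⌉₊ : ℝ) * (160:ℝ) ^ p * (12 * (X.card : ℝ)) :=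
            mul_le_mul_of_nonneg_left hsumR (by positivity)
    have : cost p E0 = cost p T + cost p ((List.range m).flatMap Elev) := cost_append _ _ _
    rw [this]
    nlinarith
  have hE0ctl : ∀ u ∈ X, ∀ v ∈ X, Controls E0 u v (dist u v) := by
    intro u hu v hv
    by_cases huv : u = v
    · subst huv
      exact (Controls.refl _ _).mono (fun _ h => h) dist_nonneg
    have hR := hδ u hu v hv huv
    set R := dist u v with hRdef
    have hx1 : (1:ℝ) ≤ R / (8 * r0) := by
      rw [le_div_iff₀ (by positivity)]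
      rw [hr0def]; linarith
    obtain ⟨i, hi1, hi2⟩ := exists_nat_pow_near hx1 (one_lt_two : (1:ℝ) < 2)
    have hp2 : (0:ℝ) < 2 ^ i := by positivity
    have hi1' : 8 * r0 * 2 ^ i ≤ R := by
      have := (le_div_iff₀ (by positivity : (0:ℝ) < 8 * r0)).mp hi1
      linarith
    have hi2' : R < 16 * r0 * 2 ^ i := by
      have := (div_lt_iff₀ (by positivity : (0:ℝ) < 8 * r0)).mp hi2
      rw [pow_succ] at this
      linarith
    have him : i < m := by
      by_contra hcon
      have hmi : m ≤ i := not_lt.mp hcon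
      have h1 : (2:ℝ) ^ m ≤ 2 ^ i := pow_le_pow_right₀ one_le_two hmi
      have h2 : R / (8 * r0) ≤ B / (8 * r0) :=
        div_le_div_of_nonneg_right (hB u hu v hv) (by positivity)
      linarith
    have huD : u ∈ D 0 := by rw [hD0]; exact hu
    have hvD : v ∈ D 0 := by rw [hD0]; exact hv
    set a := anc par i u with hadef
    set b := anc par i v with hbdef
    have haD : a ∈ D i := anc_mem D par (fun i x hx => (hpar i x hx).1) huD i
    have hbD : b ∈ D i := anc_mem D par (fun i x hx => (hpar i x hx).1) hvD i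
    have hda : dist u a ≤ r0 * (2 ^ (i + 1) - 2) := dist_anc_le D par r0 hpar huD i
    have hdb : dist v b ≤ r0 * (2 ^ (i + 1) - 2) := dist_anc_le D par r0 hpar hvD i
    have hpow : r0 * (2 ^ (i + 1) - 2) = 2 * (r0 * 2 ^ i) - 2 * r0 := by rw [pow_succ]; ring
    rw [hpow] at hda hdb
    have hr2 : 0 < r0 * 2 ^ i := by positivity
    have hab : a ≠ b := by
      intro heq
      have t1 := dist_triangle u a v
      have t2 : dist a v = dist v b := by rw [heq, dist_comm]
      rw [← hRdef] at t1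
      linarith
    have hdab : dist a b ≤ 20 * r0 * 2 ^ i := by
      have t1 := dist_triangle a u b
      have t2 := dist_triangle u v b
      rw [dist_comm a u] at t1
      rw [← hRdef] at t2
      linarith
    have hG : (a, b) ∈ Gset i :=
      Finset.mem_filter.mpr ⟨Finset.mem_product.mpr ⟨haD, hbD⟩, hab, hdab⟩
    have hsubT : ∀ x ∈ T, x ∈ E0 := fun x hx => List.mem_append_left _ hx
    have hsubL : ∀ x ∈ Elev i, x ∈ E0 := fun x hx =>
      List.mem_append_right _ (List.mem_flatMap.mpr ⟨i, List.mem_range.mpr him, hx⟩)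
    have k1 : Controls E0 u a (r0 * (2 ^ (i + 1) - 2)) :=
      (controls_anc D par r0 hpar hfix m huD i him.le).mono hsubT le_rfl
    have k3 : Controls E0 v b (r0 * (2 ^ (i + 1) - 2)) :=
      (controls_anc D par r0 hpar hfix m hvD i him.le).mono hsubT le_rfl
    have k2 : Controls E0 a b (8 * (20 * r0 * 2 ^ i) / 160) :=
      (hElevctl i (a, b) hG).mono hsubL le_rfl
    refine ((k1.trans k2).trans k3.symm).mono (fun _ h => h) ?_
    rw [hpow]
    linarith
  -- remove the loops
  let E : List (V × V × ℝ) := E0.filter (fun e => decide (e.1 ≠ e.2.1))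
  have hEsub : ∀ e ∈ E, e ∈ E0 := fun e he => (List.mem_filter.mp he).1
  refine ⟨E, fun e he => hE0pos e (hEsub e he), ?_, ?_, ?_⟩
  · intro e he
    have h1 := hE0mem e (hEsub e he)
    have h2 := (List.mem_filter.mp he).2
    exact ⟨h1.1, h1.2, by simpa using h2⟩
  · have hsl : (E.map (fun e => e.2.2 ^ p)).Sublist (E0.map (fun e => e.2.2 ^ p)) :=
      (List.filter_sublist (l := E0)).map _
    have hnn : ∀ a ∈ E0.map (fun e => e.2.2 ^ p), (0:ℝ) ≤ a := by
      intro a ha
      obtain ⟨e, he, rfl⟩ := List.mem_map.mp ha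
      exact (Real.rpow_pos_of_pos (hE0pos e he) p).le
    exact (hsl.sum_le_sum hnn).trans hE0cost
  · intro u hu v hv t L hL ht
    refine hE0ctl u hu v hv t L hL ?_
    intro e he
    by_cases hloop : e.1 = e.2.1
    · rw [hloop]; simp
    · exact ht e (List.mem_filter.mpr ⟨he, by simpa using hloop⟩)

end Vale.Agent.H5
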