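import Mathlib

/-!
# Single-scale weighted domination

A weighted edge list (endpoints and a positive gain) controls a pair of points within `ρ` when every
real function whose gain-weighted increments along the list are `L`-Lipschitz moves by at most
`L * ρ` between the two points.  The single-scale lemma: for a finite graph whose edges have length
at most `l`, and a gain parameter `c`, there is a weighted edge list of cost (sum of `p`-th powers
of the gains) at most `2 * ⌈2 * 10 ^ p⌉ * c ^ p * (number of vertices)` controlling every edge of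
the graph within `8 * l / c`.
-/

namespace Vale.Agent.H5

open Finset

variable {V : Type*} [PseudoMetricSpace V]

/-- A weighted edge list `E` (triples: two endpoints and a gain) controls the pair `u v` within
`ρ`: every real function whose gain-weighted increments along `E` are `L`-Lipschitz moves by at
most `L * ρ` between `u` and `v`. -/
def Controls (E : List (V × V × ℝ)) (u v : V) (ρ : ℝ) : Prop :=
  ∀ (t : V → ℝ) (L : ℝ), 0 ≤ L →
    (∀ e ∈ E, e.2.2 * |t e.1 - t e.2.1| ≤ L * dist e.1 e.2.1) → |t u - t v| ≤ L * ρ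

/-- The cost of a weighted edge list: the sum of the `p`-th powers of the gains. -/
noncomputable def cost (p : ℝ) (E : List (V × V × ℝ)) : ℝ := (E.map (fun e => e.2.2 ^ p)).sum

theorem Controls.mono {E E' : List (V × V × ℝ)} {u v : V} {ρ ρ' : ℝ}
    (h : Controls E u v ρ) (hE : ∀ e ∈ E, e ∈ E') (hρ : ρ ≤ ρ') : Controls E' u v ρ' := by
  intro t L hL ht
  exact (h t L hL (fun e he => ht e (hE e he))).trans (mul_le_mul_of_nonneg_left hρ hL)

theorem Controls.symm {E : List (V × V × ℝ)} {u v : V} {ρ : ℝ} (h : Controls E u v ρ) :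
    Controls E v u ρ := by
  intro t L hL ht
  rw [abs_sub_comm]; exact h t L hL ht

theorem Controls.trans {E : List (V × V × ℝ)} {u v w : V} {ρ₁ ρ₂ : ℝ}
    (h₁ : Controls E u v ρ₁) (h₂ : Controls E v w ρ₂) : Controls E u w (ρ₁ + ρ₂) := by
  intro t L hL ht
  have := abs_sub_le (t u) (t v) (t w)
  have a := h₁ t L hL ht
  have b := h₂ t L hL ht
  rw [mul_add]; linarith

theorem Controls.refl (E : List (V × V × ℝ)) (u : V) : Controls E u u 0 := by
  intro t L _ _
  simp

theorem controls_of_mem {E : List (V × V × ℝ)} {a b : V} {c l : ℝ} (hc : 0 < c)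
    (hmem : (a, b, c) ∈ E) (hd : dist a b ≤ l) : Controls E a b (l / c) := by
  intro t L hL ht
  have h := ht _ hmem
  simp only at h
  have h2 : c * |t a - t b| ≤ L * l := h.trans (mul_le_mul_of_nonneg_left hd hL)
  rw [← mul_div_assoc, le_div_iff₀ hc]
  linarith

omit [PseudoMetricSpace V] in
theorem cost_nil (p : ℝ) : cost p ([] : List (V × V × ℝ)) = 0 := by simp [cost]

omit [PseudoMetricSpace V] in
theorem cost_append (p : ℝ) (E E' : List (V × V × ℝ)) :
    cost p (E ++ E') = cost p E + cost p E' := by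
  simp [cost]

omit [PseudoMetricSpace V] in
theorem cost_map_const {α : Type*} (p c : ℝ) (s : List α) (f g : α → V) :
    cost p (s.map (fun x => (f x, g x, c))) = s.length * c ^ p := by
  simp [cost, Function.comp_def]

theorem single_scale_aux [DecidableEq V] (p : ℝ) :
    ∀ (n : ℕ) (U : Finset V), U.card = n → ∀ (G : Finset (V × V)) (l c : ℝ),
      (∀ e ∈ G, e.1 ∈ U ∧ e.2 ∈ U) → (∀ e ∈ G, dist e.1 e.2 ≤ l) → 0 < c →
      ∃ E : List (V × V × ℝ), (∀ e ∈ E, 0 < e.2.2) ∧ (∀ e ∈ E, e.1 ∈ U ∧ e.2.1 ∈ U) ∧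
        cost p E ≤ 2 * (⌈2 * (10:ℝ) ^ p⌉₊ : ℝ) * c ^ p * U.card ∧
        ∀ e ∈ G, Controls E e.1 e.2 (8 * l / c) := by
  intro n
  induction n using Nat.strong_induction_on with
  | _ n ih =>
  intro U hU G l c hG hl hc
  set D : ℕ := ⌈2 * (10:ℝ) ^ p⌉₊ with hD
  have h10 : (0:ℝ) < (10:ℝ) ^ p := Real.rpow_pos_of_pos (by norm_num) p
  have hDle : 2 * (10:ℝ) ^ p ≤ (D : ℝ) := Nat.le_ceil _
  have hD1 : 1 ≤ D := Nat.ceil_pos.mpr (by positivity)
  have hcp : (0:ℝ) < c ^ p := Real.rpow_pos_of_pos hc p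
  by_cases hl0 : 0 ≤ l
  swap
  · refine ⟨[], by simp, by simp, ?_, ?_⟩
    · rw [cost_nil]; positivity
    · intro e he
      exact absurd ((dist_nonneg).trans (hl e he)) hl0
  rcases Nat.eq_zero_or_pos U.card with hU0 | hUpos
  · refine ⟨[], by simp, by simp, ?_, ?_⟩
    · rw [cost_nil]; positivity
    · intro e he
      have := (hG e he).1
      rw [Finset.card_eq_zero.mp hU0] at this
      simp at this
  -- neighbourhoods
  let N : V → Finset V := fun u => U.filter (fun v => (u, v) ∈ G ∨ (v, u) ∈ G)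
  let Nc : V → Finset V := fun u => insert u (N u)
  let low : Finset V := U.filter (fun u => (N u).card ≤ D)
  let H : Finset V := U.filter (fun u => ¬ (N u).card ≤ D)
  have hex : ∃ P : Finset V, P ⊆ H ∧ (P : Set V).PairwiseDisjoint Nc ∧
      ∀ u ∈ H, ∃ c ∈ P, ¬ Disjoint (Nc u) (Nc c) := by
    classical
    let good : Finset (Finset V) :=
      H.powerset.filter (fun Q => (Q : Set V).PairwiseDisjoint Nc)
    have hne : good.Nonempty := ⟨∅, by simp [good]⟩
    obtain ⟨P, hP, hmax⟩ := good.exists_max_image Finset.card hne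
    have hP' := Finset.mem_filter.mp hP
    refine ⟨P, Finset.mem_powerset.mp hP'.1, hP'.2, ?_⟩
    intro u hu
    by_cases huP : u ∈ P
    · refine ⟨u, huP, ?_⟩
      rw [Finset.disjoint_self_iff_empty]
      exact Finset.insert_ne_empty _ _
    · by_contra hcon
      push Not at hcon
      have hgood : insert u P ∈ good := by
        refine Finset.mem_filter.mpr ⟨Finset.mem_powerset.mpr
          (Finset.insert_subset hu (Finset.mem_powerset.mp hP'.1)), ?_⟩
        rw [Finset.coe_insert]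
        exact hP'.2.insert (fun c hc _ => hcon c hc)
      have := hmax _ hgood
      rw [Finset.card_insert_of_notMem huP] at this
      omega
  obtain ⟨P, hPH, hPd, hPmax⟩ := hex
  have hPcard : P.card * (D + 1) ≤ U.card := by
    have h1 : (P.biUnion Nc).card = ∑ u ∈ P, (Nc u).card := Finset.card_biUnion hPd
    have h2 : P.biUnion Nc ⊆ U := by
      intro x hx
      obtain ⟨u, huP, hxu⟩ := Finset.mem_biUnion.mp hx
      rcases Finset.mem_insert.mp hxu with rfl | hxN
      · exact (Finset.mem_filter.mp (hPH huP)).1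
      · exact (Finset.mem_filter.mp hxN).1
    have h3 : ∀ u ∈ P, D + 1 ≤ (Nc u).card := by
      intro u huP
      have huH := Finset.mem_filter.mp (hPH huP)
      have h4 : D < (N u).card := not_le.mp huH.2
      calc D + 1 ≤ (N u).card := h4
        _ ≤ (Nc u).card := Finset.card_le_card (Finset.subset_insert _ _)
    calc P.card * (D + 1) = ∑ u ∈ P, (D + 1) := by simp
      _ ≤ ∑ u ∈ P, (Nc u).card := Finset.sum_le_sum h3
      _ = (P.biUnion Nc).card := h1.symm
      _ ≤ U.card := Finset.card_le_card h2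
  choose! ctr hctrP hctrD using hPmax
  have hNc : ∀ u w, w ∈ Nc u → dist u w ≤ l := by
    intro u w hw
    rcases Finset.mem_insert.mp hw with rfl | hwN
    · simpa using hl0
    · rcases (Finset.mem_filter.mp hwN).2 with h | h
      · exact hl _ h
      · have := hl _ h
        rwa [dist_comm] at this
  have hctr2 : ∀ u ∈ H, dist u (ctr u) ≤ 2 * l := by
    intro u hu
    obtain ⟨w, hw1, hw2⟩ := Finset.not_disjoint_iff.mp (hctrD u hu)
    have a := hNc u w hw1
    have b := hNc (ctr u) w hw2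
    have := dist_triangle u w (ctr u)
    rw [dist_comm w (ctr u)] at this
    linarith
  let G' : Finset (V × V) :=
    (G.filter (fun e => e.1 ∈ H ∧ e.2 ∈ H)).image (fun e => (ctr e.1, ctr e.2))
  have hG' : ∀ e ∈ G', e.1 ∈ P ∧ e.2 ∈ P := by
    intro e he
    obtain ⟨e0, he0, rfl⟩ := Finset.mem_image.mp he
    have := (Finset.mem_filter.mp he0).2
    exact ⟨hctrP _ this.1, hctrP _ this.2⟩
  have hl' : ∀ e ∈ G', dist e.1 e.2 ≤ 5 * l := by
    intro e he
    obtain ⟨e0, he0, rfl⟩ := Finset.mem_image.mp he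
    have hf := Finset.mem_filter.mp he0
    have h1 := hctr2 _ hf.2.1
    have h2 := hctr2 _ hf.2.2
    have h3 := hl _ hf.1
    have t1 := dist_triangle (ctr e0.1) e0.1 (ctr e0.2)
    have t2 := dist_triangle e0.1 e0.2 (ctr e0.2)
    rw [dist_comm (ctr e0.1) e0.1] at t1
    simp only
    linarith
  have hPlt : P.card < n := by
    have : P.card * 2 ≤ P.card * (D + 1) := Nat.mul_le_mul_left _ (by omega)
    omega
  obtain ⟨E', hE'pos, hE'mem, hE'cost, hE'ctl⟩ :=
    ih P.card hPlt P rfl G' (5 * l) (10 * c) hG' hl' (by positivity)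
  let Slow : Finset (Σ _ : V, V) := low.sigma N
  let Elow : List (V × V × ℝ) := Slow.toList.map (fun x => (x.1, x.2, c))
  let Ehop : List (V × V × ℝ) := H.toList.map (fun u => (u, ctr u, c))
  have hHU : H ⊆ U := Finset.filter_subset _ _
  refine ⟨Elow ++ Ehop ++ E', ?_, ?_, ?_, ?_⟩
  · intro e he
    rcases List.mem_append.mp he with he | he
    · rcases List.mem_append.mp he with he | he
      · obtain ⟨x, _, rfl⟩ := List.mem_map.mp he
        exact hc
      · obtain ⟨x, _, rfl⟩ := List.mem_map.mp he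
        exact hc
    · exact hE'pos e he
  · intro e he
    rcases List.mem_append.mp he with he | he
    · rcases List.mem_append.mp he with he | he
      · obtain ⟨x, hx, rfl⟩ := List.mem_map.mp he
        have hx' := Finset.mem_sigma.mp (Finset.mem_toList.mp hx)
        exact ⟨(Finset.mem_filter.mp hx'.1).1, (Finset.mem_filter.mp hx'.2).1⟩
      · obtain ⟨x, hx, rfl⟩ := List.mem_map.mp he
        have hx' := Finset.mem_toList.mp hx
        exact ⟨hHU hx', hHU (hPH (hctrP x hx'))⟩
    · exact ⟨hHU (hPH (hE'mem e he).1), hHU (hPH (hE'mem e he).2)⟩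
  · rw [cost_append, cost_append]
    have c1 : cost p Elow = (Slow.card : ℝ) * c ^ p := by
      have := cost_map_const (V := V) p c Slow.toList (fun x => x.1) (fun x => x.2)
      rw [Finset.length_toList] at this
      exact this
    have c2 : cost p Ehop = (H.card : ℝ) * c ^ p := by
      have := cost_map_const (V := V) p c H.toList (fun u => u) ctr
      rw [Finset.length_toList] at this
      exact this
    have hSlow : Slow.card ≤ D * low.card := by
      rw [Finset.card_sigma]
      calc ∑ a ∈ low, (N a).card ≤ ∑ a ∈ low, D :=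
            Finset.sum_le_sum (fun a ha => (Finset.mem_filter.mp ha).2)
        _ = D * low.card := by simp [mul_comm]
    have hsplit : low.card + H.card = U.card :=
      Finset.card_filter_add_card_filter_not (s := U) (fun u => (N u).card ≤ D)
    have hSlowR : (Slow.card : ℝ) ≤ (D : ℝ) * (low.card : ℝ) := by exact_mod_cast hSlow
    have hsplitR : (low.card : ℝ) + (H.card : ℝ) = (U.card : ℝ) := by exact_mod_cast hsplit
    have hPR : (P.card : ℝ) * ((D : ℝ) + 1) ≤ (U.card : ℝ) := by exact_mod_cast hPcard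
    have hD1R : (1 : ℝ) ≤ (D : ℝ) := by exact_mod_cast hD1
    have hmul : (10 * c) ^ p = (10:ℝ) ^ p * c ^ p := Real.mul_rpow (by norm_num) hc.le
    rw [c1, c2]
    rw [hmul] at hE'cost
    have hlowpos : (0:ℝ) ≤ (low.card : ℝ) := Nat.cast_nonneg _
    have hHpos : (0:ℝ) ≤ (H.card : ℝ) := Nat.cast_nonneg _
    have hPpos : (0:ℝ) ≤ (P.card : ℝ) := Nat.cast_nonneg _
    have e0 : (Slow.card : ℝ) * c ^ p ≤ (D : ℝ) * (low.card : ℝ) * c ^ p :=
      mul_le_mul_of_nonneg_right hSlowR hcp.le
    have e1 : (H.card : ℝ) * c ^ p ≤ (D : ℝ) * (H.card : ℝ) * c ^ p := by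
      have : (H.card : ℝ) ≤ (D : ℝ) * (H.card : ℝ) := by nlinarith
      exact mul_le_mul_of_nonneg_right this hcp.le
    have e2 : 2 * (10:ℝ) ^ p * (P.card : ℝ) ≤ (U.card : ℝ) := by nlinarith
    have e3 : 2 * (D : ℝ) * ((10:ℝ) ^ p * c ^ p) * (P.card : ℝ)
        ≤ (D : ℝ) * c ^ p * (U.card : ℝ) := by
      have : (D : ℝ) * c ^ p * (2 * (10:ℝ) ^ p * (P.card : ℝ)) ≤ (D : ℝ) * c ^ p * (U.card : ℝ) :=
        mul_le_mul_of_nonneg_left e2 (by positivity)
      calc 2 * (D : ℝ) * ((10:ℝ) ^ p * c ^ p) * (P.card : ℝ)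
          = (D : ℝ) * c ^ p * (2 * (10:ℝ) ^ p * (P.card : ℝ)) := by ring
        _ ≤ _ := this
    calc (Slow.card : ℝ) * c ^ p + (H.card : ℝ) * c ^ p + cost p E'
        ≤ (D : ℝ) * (low.card : ℝ) * c ^ p + (D : ℝ) * (H.card : ℝ) * c ^ p
          + (D : ℝ) * c ^ p * (U.card : ℝ) := by linarith
      _ = (D : ℝ) * c ^ p * ((low.card : ℝ) + (H.card : ℝ)) + (D : ℝ) * c ^ p * (U.card : ℝ) := by
          ring
      _ = 2 * (D : ℝ) * c ^ p * (U.card : ℝ) := by rw [hsplitR]; ring
  · intro e he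
    have hsub1 : ∀ x ∈ Elow, x ∈ Elow ++ Ehop ++ E' := by
      intro x hx; simp [hx]
    have hsub2 : ∀ x ∈ Ehop, x ∈ Elow ++ Ehop ++ E' := by
      intro x hx; simp [hx]
    have hsub3 : ∀ x ∈ E', x ∈ Elow ++ Ehop ++ E' := by
      intro x hx; simp [hx]
    have heU := hG e he
    have hee : (e.1, e.2) ∈ G := by simpa using he
    have hle : l / c ≤ 8 * l / c := by
      rw [div_le_div_iff_of_pos_right hc]; linarith
    by_cases h1 : e.1 ∈ low
    · have hmem : (e.1, e.2, c) ∈ Elow := by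
        apply List.mem_map.mpr
        refine ⟨⟨e.1, e.2⟩, ?_, rfl⟩
        rw [Finset.mem_toList, Finset.mem_sigma]
        exact ⟨h1, Finset.mem_filter.mpr ⟨heU.2, Or.inl hee⟩⟩
      exact (controls_of_mem hc (hsub1 _ hmem) (hl e he)).mono (fun _ h => h) hle
    by_cases h2 : e.2 ∈ low
    · have hmem : (e.2, e.1, c) ∈ Elow := by
        apply List.mem_map.mpr
        refine ⟨⟨e.2, e.1⟩, ?_, rfl⟩
        rw [Finset.mem_toList, Finset.mem_sigma]
        exact ⟨h2, Finset.mem_filter.mpr ⟨heU.1, Or.inr hee⟩⟩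
      have hd : dist e.2 e.1 ≤ l := by rw [dist_comm]; exact hl e he
      exact ((controls_of_mem hc (hsub1 _ hmem) hd).mono (fun _ h => h) hle).symm
    have hH1 : e.1 ∈ H :=
      Finset.mem_filter.mpr ⟨heU.1, fun h => h1 (Finset.mem_filter.mpr ⟨heU.1, h⟩)⟩
    have hH2 : e.2 ∈ H :=
      Finset.mem_filter.mpr ⟨heU.2, fun h => h2 (Finset.mem_filter.mpr ⟨heU.2, h⟩)⟩
    have m1 : (e.1, ctr e.1, c) ∈ Ehop :=
      List.mem_map.mpr ⟨e.1, Finset.mem_toList.mpr hH1, rfl⟩
    have m2 : (e.2, ctr e.2, c) ∈ Ehop :=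
      List.mem_map.mpr ⟨e.2, Finset.mem_toList.mpr hH2, rfl⟩
    have k1 := controls_of_mem hc (hsub2 _ m1) (hctr2 _ hH1)
    have k3 := controls_of_mem hc (hsub2 _ m2) (hctr2 _ hH2)
    have m3 : (ctr e.1, ctr e.2) ∈ G' :=
      Finset.mem_image.mpr ⟨e, Finset.mem_filter.mpr ⟨he, hH1, hH2⟩, rfl⟩
    have k2 := (hE'ctl _ m3).mono hsub3 le_rfl
    refine ((k1.trans k2).trans k3.symm).mono (fun _ h => h) (le_of_eq ?_)
    field_simp
    ring

/-- **Single-scale lemma**, with the endpoints of the weighted edges recorded.  For a finite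
graph `G` on the vertex set `U` of a pseudometric space whose edges have length at most `l`, and
any gain `c > 0`, there is a weighted edge list with positive gains and endpoints in `U`, of cost
at most `2 * ⌈2 * 10 ^ p⌉ * c ^ p * |U|`, that controls every edge of `G` within `8 * l / c`. -/
theorem single_scale_mem [DecidableEq V] (p : ℝ) (U : Finset V) (G : Finset (V × V))
    (hG : ∀ e ∈ G, e.1 ∈ U ∧ e.2 ∈ U) (l c : ℝ) (hl : ∀ e ∈ G, dist e.1 e.2 ≤ l) (hc : 0 < c) :
    ∃ E : List (V × V × ℝ), (∀ e ∈ E, 0 < e.2.2) ∧ (∀ e ∈ E, e.1 ∈ U ∧ e.2.1 ∈ U) ∧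
      cost p E ≤ 2 * (⌈2 * (10:ℝ) ^ p⌉₊ : ℝ) * c ^ p * U.card ∧
      ∀ e ∈ G, Controls E e.1 e.2 (8 * l / c) :=
  single_scale_aux p U.card U rfl G l c hG hl hc

/-- **Single-scale lemma.**  For a finite graph `G` on the vertex set `U` of a pseudometric space
whose edges have length at most `l`, and any gain `c > 0`, there is a weighted edge list with
positive gains, of cost at most `2 * ⌈2 * 10 ^ p⌉ * c ^ p * |U|`, that controls every edge of `G`
within `8 * l / c`. -/
theorem single_scale [DecidableEq V] (p : ℝ) (_hp : 1 ≤ p) (U : Finset V) (G : Finset (V × V))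
    (hG : ∀ e ∈ G, e.1 ∈ U ∧ e.2 ∈ U) (l c : ℝ) (hl : ∀ e ∈ G, dist e.1 e.2 ≤ l) (hc : 0 < c) :
    ∃ E : List (V × V × ℝ), (∀ e ∈ E, 0 < e.2.2) ∧
      (E.map (fun e => e.2.2 ^ p)).sum ≤ 2 * (⌈2 * (10:ℝ) ^ p⌉₊ : ℝ) * c ^ p * U.card ∧
      ∀ e ∈ G, Controls E e.1 e.2 (8 * l / c) := by
  obtain ⟨E, h1, _, h3, h4⟩ := single_scale_mem p U G hG l c hl hc
  exact ⟨E, h1, h3, h4⟩

end Vale.Agent.H5
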