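import Mathlib

namespace Vale.Agent.H5

open SimpleGraph

section Weight

variable {V : Type*} (w : V → V → ℝ)

/-- the weight of a walk: sum of the weights of its darts -/
def wwt {G : SimpleGraph V} {u v : V} (p : G.Walk u v) : ℝ :=
  (p.darts.map (fun d => w d.fst d.snd)).sum

@[simp] lemma wwt_nil {G : SimpleGraph V} (u : V) : wwt w (Walk.nil : G.Walk u u) = 0 := by
  simp [wwt]

@[simp] lemma wwt_cons {G : SimpleGraph V} {u v x : V} (h : G.Adj u v) (p : G.Walk v x) :
    wwt w (Walk.cons h p) = w u v + wwt w p := by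
  simp [wwt]

@[simp] lemma wwt_append {G : SimpleGraph V} {u v x : V} (p : G.Walk u v) (q : G.Walk v x) :
    wwt w (p.append q) = wwt w p + wwt w q := by
  simp [wwt]

lemma wwt_reverse (hw : ∀ u v, w u v = w v u) {G : SimpleGraph V} {u v : V} (p : G.Walk u v) :
    wwt w p.reverse = wwt w p := by
  induction p with
  | nil => simp
  | cons h p ih =>
    rw [Walk.reverse_cons, wwt_append, ih, wwt_cons, wwt_cons, wwt_nil, hw]
    ring

lemma wwt_mapLe {G H : SimpleGraph V} (hGH : G ≤ H) {u v : V} (p : G.Walk u v) :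
    wwt w (p.mapLe hGH) = wwt w p := by
  induction p with
  | nil => simp [Walk.mapLe]
  | cons h p ih =>
    simp only [Walk.mapLe, Walk.map_cons, wwt_cons] at ih ⊢
    rw [ih]
    rfl

lemma edges_mapLe {G H : SimpleGraph V} (hGH : G ≤ H) {u v : V} (p : G.Walk u v) :
    (p.mapLe hGH).edges = p.edges := by
  induction p with
  | nil => simp [Walk.mapLe]
  | cons h p ih =>
    simp only [Walk.mapLe, Walk.map_cons, Walk.edges_cons] at ih ⊢
    rw [ih]
    rfl

lemma length_mapLe {G H : SimpleGraph V} (hGH : G ≤ H) {u v : V} (p : G.Walk u v) :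
    (p.mapLe hGH).length = p.length := by
  simp [Walk.mapLe]

/-- if every edge of the walk has weight at most `W ≥ 0`, then the weight is at most
`length * W` -/
lemma wwt_le_length_mul {G : SimpleGraph V} {W : ℝ}
    (hG : ∀ a b, G.Adj a b → w a b ≤ W) {u v : V} (p : G.Walk u v) :
    wwt w p ≤ p.length * W := by
  induction p with
  | nil => simp
  | cons h p ih =>
    rw [wwt_cons, Walk.length_cons]
    push_cast
    have := hG _ _ h
    linarith

end Weight

section Insertion

variable {V : Type*}

/-- Walks in a graph `H'` obtained from `H` by adding (at most) the edge `uv`: either the walk can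
be replaced by an `H`-walk, or it crosses the new edge and then splits into two `H`-walks. -/
lemma walk_insert_edge {H H' : SimpleGraph V} {u v : V}
    (hadj : ∀ x y, H'.Adj x y → H.Adj x y ∨ s(x, y) = s(u, v)) :
    ∀ {a b : V} (q : H'.Walk a b),
      (∃ q' : H.Walk a b, q'.length ≤ q.length ∧ ∀ e ∈ q'.edges, e ∈ q.edges) ∨
      (s(u, v) ∈ q.edges ∧ ∃ (q₁ : H.Walk a u) (q₂ : H.Walk v b),
        q₁.length + q₂.length + 1 ≤ q.length ∧
        (∀ e ∈ q₁.edges, e ∈ q.edges) ∧ (∀ e ∈ q₂.edges, e ∈ q.edges)) ∨
      (s(u, v) ∈ q.edges ∧ ∃ (q₁ : H.Walk a v) (q₂ : H.Walk u b),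
        q₁.length + q₂.length + 1 ≤ q.length ∧
        (∀ e ∈ q₁.edges, e ∈ q.edges) ∧ (∀ e ∈ q₂.edges, e ∈ q.edges)) := by
  intro a b q
  induction q with
  | nil => exact Or.inl ⟨Walk.nil, le_refl _, by simp⟩
  | @cons a c b h q ih =>
    rcases hadj a c h with hH | hnew
    · rcases ih with ⟨q', hl, he⟩ | ⟨hm, q₁, q₂, hl, he₁, he₂⟩ | ⟨hm, q₁, q₂, hl, he₁, he₂⟩
      · refine Or.inl ⟨Walk.cons hH q', by simp; omega, ?_⟩
        intro e he'
        simp only [Walk.edges_cons, List.mem_cons] at he' ⊢
        rcases he' with rfl | he'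
        · exact Or.inl rfl
        · exact Or.inr (he e he')
      · refine Or.inr (Or.inl ⟨by simp [hm], Walk.cons hH q₁, q₂, by simp; omega, ?_, ?_⟩)
        · intro e he'
          simp only [Walk.edges_cons, List.mem_cons] at he' ⊢
          rcases he' with rfl | he'
          · exact Or.inl rfl
          · exact Or.inr (he₁ e he')
        · intro e he'
          simp only [Walk.edges_cons, List.mem_cons]
          exact Or.inr (he₂ e he')
      · refine Or.inr (Or.inr ⟨by simp [hm], Walk.cons hH q₁, q₂, by simp; omega, ?_, ?_⟩)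
        · intro e he'
          simp only [Walk.edges_cons, List.mem_cons] at he' ⊢
          rcases he' with rfl | he'
          · exact Or.inl rfl
          · exact Or.inr (he₁ e he')
        · intro e he'
          simp only [Walk.edges_cons, List.mem_cons]
          exact Or.inr (he₂ e he')
    · have hmem : s(u, v) ∈ (Walk.cons h q).edges := by
        simp only [Walk.edges_cons, List.mem_cons]
        exact Or.inl hnew.symm
      rw [Sym2.eq_iff] at hnew
      rcases hnew with ⟨rfl, rfl⟩ | ⟨rfl, rfl⟩
      · -- a = u, c = v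
        rcases ih with ⟨q', hl, he⟩ | ⟨hm, q₁, q₂, hl, he₁, he₂⟩ | ⟨hm, q₁, q₂, hl, he₁, he₂⟩
        · refine Or.inr (Or.inl ⟨hmem, Walk.nil, q', by simp; omega, by simp, ?_⟩)
          intro e he'
          simp only [Walk.edges_cons, List.mem_cons]
          exact Or.inr (he e he')
        · refine Or.inr (Or.inl ⟨hmem, Walk.nil, q₂, by simp; omega, by simp, ?_⟩)
          intro e he'
          simp only [Walk.edges_cons, List.mem_cons]
          exact Or.inr (he₂ e he')
        · refine Or.inl ⟨q₂, by simp; omega, ?_⟩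
          intro e he'
          simp only [Walk.edges_cons, List.mem_cons]
          exact Or.inr (he₂ e he')
      · -- a = v, c = u
        rcases ih with ⟨q', hl, he⟩ | ⟨hm, q₁, q₂, hl, he₁, he₂⟩ | ⟨hm, q₁, q₂, hl, he₁, he₂⟩
        · refine Or.inr (Or.inr ⟨hmem, Walk.nil, q', by simp; omega, by simp, ?_⟩)
          intro e he'
          simp only [Walk.edges_cons, List.mem_cons]
          exact Or.inr (he e he')
        · refine Or.inl ⟨q₂, by simp; omega, ?_⟩
          intro e he'
          simp only [Walk.edges_cons, List.mem_cons]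
          exact Or.inr (he₂ e he')
        · refine Or.inr (Or.inr ⟨hmem, Walk.nil, q₂, by simp; omega, by simp, ?_⟩)
          intro e he'
          simp only [Walk.edges_cons, List.mem_cons]
          exact Or.inr (he₂ e he')

end Insertion


section Greedy

variable {V : Type*}

/-- No short cycle through any edge: every walk joining the endpoints of an edge and avoiding
that edge has length at least `2k`. -/
def NoShort (k : ℕ) (G : SimpleGraph V) : Prop :=
  ∀ a b, G.Adj a b → ∀ q : G.Walk a b, s(a, b) ∉ q.edges → 2 * k ≤ q.length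

/-- The invariant of the greedy spanner construction. -/
def GreedyInv (w : V → V → ℝ) (k : ℕ) (H : SimpleGraph V) (P : Finset (Sym2 V)) : Prop :=
  (∀ a b, H.Adj a b → s(a, b) ∈ P) ∧
  (∀ a b, a ≠ b → s(a, b) ∈ P → ∃ p : H.Walk a b, wwt w p ≤ (2 * (k : ℝ) - 1) * w a b) ∧
  NoShort k H

lemma greedy_step (w : V → V → ℝ) (hw : ∀ u v, w u v = w v u)
    (hw0 : ∀ a b, a ≠ b → 0 ≤ w a b) (k : ℕ) (hk : 1 ≤ k)
    (H : SimpleGraph V) (P : Finset (Sym2 V)) [DecidableEq V] (hInv : GreedyInv w k H P)
    (u v : V) (huv : u ≠ v) (hmax : ∀ a b, s(a, b) ∈ P → w a b ≤ w u v) :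
    ∃ H' : SimpleGraph V, GreedyInv w k H' (insert s(u, v) P) := by
  obtain ⟨hI1, hI2, hI3⟩ := hInv
  have hW0 : 0 ≤ w u v := hw0 u v huv
  have hk' : (1 : ℝ) ≤ (k : ℝ) := by exact_mod_cast hk
  by_cases hex : ∃ p : H.Walk u v, wwt w p ≤ (2 * (k : ℝ) - 1) * w u v
  · -- the pair is already spanned
    refine ⟨H, ?_, ?_, hI3⟩
    · intro a b hab
      exact Finset.mem_insert_of_mem (hI1 a b hab)
    · intro a b hab hmem
      rw [Finset.mem_insert] at hmem
      rcases hmem with heq | hmem
      · obtain ⟨p, hp⟩ := hex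
        rw [Sym2.eq_iff] at heq
        rcases heq with ⟨rfl, rfl⟩ | ⟨rfl, rfl⟩
        · exact ⟨p, hp⟩
        · refine ⟨p.reverse, ?_⟩
          rw [wwt_reverse w hw, hw a b]
          exact hp
      · exact hI2 a b hab hmem
  · -- add the edge
    have hshort : ∀ p : H.Walk u v, 2 * k ≤ p.length := by
      intro p
      by_contra hlt
      push Not at hlt
      apply hex
      refine ⟨p, ?_⟩
      have h1 : wwt w p ≤ p.length * w u v :=
        wwt_le_length_mul w (fun a b hab => hmax a b (hI1 a b hab)) p
      have h2 : (p.length : ℝ) ≤ 2 * (k : ℝ) - 1 := by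
        have : p.length + 1 ≤ 2 * k := hlt
        have : ((p.length + 1 : ℕ) : ℝ) ≤ ((2 * k : ℕ) : ℝ) := by exact_mod_cast this
        push_cast at this
        linarith
      calc wwt w p ≤ p.length * w u v := h1
        _ ≤ (2 * (k : ℝ) - 1) * w u v := by gcongr
    have hshort' : ∀ p : H.Walk v u, 2 * k ≤ p.length := by
      intro p
      have := hshort p.reverse
      rwa [Walk.length_reverse] at this
    set H' : SimpleGraph V := H ⊔ SimpleGraph.fromEdgeSet {s(u, v)} with hH'
    have hle : H ≤ H' := le_sup_left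
    have hadj : ∀ x y, H'.Adj x y → H.Adj x y ∨ s(x, y) = s(u, v) := by
      intro x y hxy
      rw [hH', SimpleGraph.sup_adj, SimpleGraph.fromEdgeSet_adj] at hxy
      rcases hxy with h | ⟨h, _⟩
      · exact Or.inl h
      · exact Or.inr (by simpa using h)
    have hnew : H'.Adj u v := by
      rw [hH', SimpleGraph.sup_adj, SimpleGraph.fromEdgeSet_adj]
      exact Or.inr ⟨by simp, huv⟩
    refine ⟨H', ?_, ?_, ?_⟩
    · intro a b hab
      rcases hadj a b hab with h | h
      · exact Finset.mem_insert_of_mem (hI1 a b h)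
      · rw [h]; exact Finset.mem_insert_self _ _
    · intro a b hab hmem
      rw [Finset.mem_insert] at hmem
      rcases hmem with heq | hmem
      · rw [Sym2.eq_iff] at heq
        have key : ∀ x y, H'.Adj x y → w x y = w u v →
            ∃ p : H'.Walk x y, wwt w p ≤ (2 * (k : ℝ) - 1) * w x y := by
          intro x y hxy hwxy
          refine ⟨Walk.cons hxy Walk.nil, ?_⟩
          rw [wwt_cons, wwt_nil, add_zero, hwxy]
          nlinarith
        rcases heq with ⟨rfl, rfl⟩ | ⟨rfl, rfl⟩
        · exact key a b hnew rfl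
        · exact key a b hnew.symm (hw a b)
      · obtain ⟨p, hp⟩ := hI2 a b hab hmem
        exact ⟨p.mapLe hle, by rw [wwt_mapLe]; exact hp⟩
    · intro a b hab q hq
      by_contra hlt
      push Not at hlt
      rcases hadj a b hab with hHab | hnewab
      · rcases walk_insert_edge hadj q with ⟨q', hl, he⟩ | ⟨_, q₁, q₂, hl, _, _⟩ |
          ⟨_, q₁, q₂, hl, _, _⟩
        · have := hI3 a b hHab q' (fun h => hq (he _ h))
          omega
        · have := hshort (q₁.reverse.append (Walk.cons hHab q₂.reverse))
          simp only [Walk.length_append, Walk.length_reverse, Walk.length_cons] at this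
          omega
        · have := hshort' (q₁.reverse.append (Walk.cons hHab q₂.reverse))
          simp only [Walk.length_append, Walk.length_reverse, Walk.length_cons] at this
          omega
      · rcases walk_insert_edge hadj q with ⟨q', hl, he⟩ | ⟨hm, _⟩ | ⟨hm, _⟩
        · rw [Sym2.eq_iff] at hnewab
          rcases hnewab with ⟨rfl, rfl⟩ | ⟨rfl, rfl⟩
          · have := hshort q'
            omega
          · have := hshort' q'
            omega
        · exact hq (hnewab ▸ hm)
        · exact hq (hnewab ▸ hm)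

lemma greedy_exists [Fintype V] [DecidableEq V] (w : V → V → ℝ) (hw : ∀ u v, w u v = w v u)
    (hw0 : ∀ a b, a ≠ b → 0 ≤ w a b) (k : ℕ) (hk : 1 ≤ k) :
    ∃ H : SimpleGraph V,
      (∀ a b, a ≠ b → ∃ p : H.Walk a b, wwt w p ≤ (2 * (k : ℝ) - 1) * w a b) ∧ NoShort k H := by
  classical
  set ND : Finset (Sym2 V) := Finset.univ.filter (fun e => ¬ e.IsDiag) with hND
  set wS : Sym2 V → ℝ := Sym2.lift ⟨w, hw⟩ with hwS
  have hwS_mk : ∀ a b, wS s(a, b) = w a b := fun a b => rfl
  have key : ∀ m : ℕ, ∀ P : Finset (Sym2 V), P ⊆ ND → (ND \ P).card = m →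
      (∀ e ∈ P, ∀ e' ∈ ND \ P, wS e ≤ wS e') → (∃ H, GreedyInv w k H P) →
      ∃ H, GreedyInv w k H ND := by
    intro m
    induction m with
    | zero =>
      intro P hP hcard _ hex
      have : ND \ P = ∅ := Finset.card_eq_zero.mp hcard
      have hsub : ND ⊆ P := Finset.sdiff_eq_empty_iff_subset.mp this
      have : P = ND := Finset.Subset.antisymm hP hsub
      rw [← this]
      exact hex
    | succ m ih =>
      intro P hP hcard hdown hex
      have hne : (ND \ P).Nonempty := by
        rw [← Finset.card_pos]; omega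
      obtain ⟨e₀, he₀, hmin⟩ := Finset.exists_min_image (ND \ P) wS hne
      induction e₀ using Sym2.ind with
      | _ u v =>
        have he₀' := Finset.mem_sdiff.mp he₀
        have huv : u ≠ v := by
          have := (Finset.mem_filter.mp he₀'.1).2
          simpa using this
        obtain ⟨H, hH⟩ := hex
        have hmax : ∀ a b, s(a, b) ∈ P → w a b ≤ w u v := by
          intro a b hab
          have := hdown s(a, b) hab s(u, v) he₀
          simpa [hwS_mk] using this
        obtain ⟨H', hH'⟩ := greedy_step w hw hw0 k hk H P hH u v huv hmax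
        apply ih (insert s(u, v) P)
        · intro e he
          rw [Finset.mem_insert] at he
          rcases he with rfl | he
          · exact he₀'.1
          · exact hP he
        · rw [Finset.sdiff_insert, Finset.card_erase_of_mem he₀, hcard]
          rfl
        · intro e he e' he'
          have he'2 : e' ∈ ND \ P := by
            rw [Finset.mem_sdiff] at he' ⊢
            exact ⟨he'.1, fun h => he'.2 (Finset.mem_insert_of_mem h)⟩
          rw [Finset.mem_insert] at he
          rcases he with rfl | he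
          · exact hmin e' he'2
          · exact hdown e he e' he'2
        · exact ⟨H', hH'⟩
  obtain ⟨H, hI1, hI2, hI3⟩ := key (ND \ ∅).card ∅ (Finset.empty_subset _) rfl
    (by intro e he; simp at he)
    ⟨⊥, by intro a b hab; exact absurd hab (by simp), by intro a b _ hab; simp at hab,
      by intro a b hab; exact absurd hab (by simp)⟩
  refine ⟨H, ?_, hI3⟩
  intro a b hab
  apply hI2 a b hab
  rw [hND, Finset.mem_filter]
  exact ⟨Finset.mem_univ _, by simpa using hab⟩

end Greedy


section Moore

variable {V : Type*}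

lemma noShort_mono {k : ℕ} {G G' : SimpleGraph V} (h : G' ≤ G) (hG : NoShort k G) :
    NoShort k G' := by
  intro a b hab q hq
  have := hG a b (h hab) (q.mapLe h) (by rw [edges_mapLe]; exact hq)
  rwa [length_mapLe] at this

lemma exists_walk_length_le {G : SimpleGraph V} {v y : V} {j : ℕ}
    (h : G.edist v y ≤ (j : ℕ∞)) : ∃ p : G.Walk v y, p.length ≤ j := by
  obtain ⟨m, hm, hmj⟩ := ENat.le_natCast_iff.mp h
  obtain ⟨p, hp⟩ := SimpleGraph.exists_walk_of_edist_eq_coe hm
  exact ⟨p, by omega⟩

lemma exists_walk_head_lt {G : SimpleGraph V} {v z x : V} (p : G.Walk v z) (hx : x ∈ p.support)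
    (hxz : x ≠ z) : ∃ q : G.Walk v x, q.length + 1 ≤ p.length := by
  obtain ⟨q, r, rfl⟩ := Walk.mem_support_iff_exists_append.mp hx
  refine ⟨q, ?_⟩
  rw [Walk.length_append]
  have : r.length ≠ 0 := fun h0 => hxz (Walk.eq_of_length_eq_zero h0)
  omega

lemma exists_walk_head_le {G : SimpleGraph V} {v z x : V} (p : G.Walk v z)
    (hx : x ∈ p.support) : ∃ q : G.Walk v x, q.length ≤ p.length := by
  obtain ⟨q, r, rfl⟩ := Walk.mem_support_iff_exists_append.mp hx
  refine ⟨q, ?_⟩
  rw [Walk.length_append]
  omega

/-- the core contradiction: two short walks from `v` to two distinct neighbours of `x`, both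
avoiding `x`, would close a short cycle through `x`. -/
lemma no_two_short {k : ℕ} {G : SimpleGraph V} (hG : NoShort k G) {v x y₁ y₂ : V} {j : ℕ}
    (hj : j + 1 ≤ k) (hx1 : G.Adj x y₁) (hx2 : G.Adj x y₂) (hne : y₁ ≠ y₂)
    (p₁ : G.Walk v y₁) (p₂ : G.Walk v y₂) (h1 : p₁.length ≤ j) (h2 : p₂.length ≤ j)
    (hxp1 : x ∉ p₁.support) (hxp2 : x ∉ p₂.support) : False := by
  have hlen := hG x y₁ hx1 (Walk.cons hx2 (p₂.reverse.append p₁)) (by
    simp only [Walk.edges_cons, Walk.edges_append, Walk.edges_reverse, List.mem_cons,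
      List.mem_append, List.mem_reverse, not_or]
    refine ⟨?_, ?_, ?_⟩
    · intro h
      rw [Sym2.eq_iff] at h
      rcases h with ⟨_, h⟩ | ⟨h, _⟩
      · exact hne h
      · exact hx2.ne h
    · intro h
      exact hxp2 (p₂.fst_mem_support_of_mem_edges h)
    · intro h
      exact hxp1 (p₁.fst_mem_support_of_mem_edges h))
  simp only [Walk.length_cons, Walk.length_append, Walk.length_reverse] at hlen
  omega

lemma walk_mem_of_mem {G : SimpleGraph V} {S : Finset V}
    (hS : ∀ a b, G.Adj a b → a ∈ S ∧ b ∈ S) : ∀ {a b : V} (_ : G.Walk a b), a ∈ S → b ∈ S := by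
  intro a b p
  induction p with
  | nil => exact id
  | cons h p ih => exact fun _ => ih (hS _ _ h).2

variable [Fintype V] [DecidableEq V]

open Classical in
lemma sphere_growth (k t : ℕ) (G : SimpleGraph V) [DecidableRel G.Adj] (hG : NoShort k G)
    (S : Finset V) (hS : ∀ a b, G.Adj a b → a ∈ S ∧ b ∈ S)
    (hdeg : ∀ x ∈ S, t + 1 ≤ G.degree x) (v : V) (hv : v ∈ S) :
    ∀ j : ℕ, j ≤ k →
      t ^ j ≤ (Finset.univ.filter (fun x => G.edist v x = (j : ℕ∞))).card := by
  intro j
  induction j with
  | zero =>
    intro _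
    rw [pow_zero, Finset.one_le_card]
    exact ⟨v, by simp⟩
  | succ j ih =>
    intro hj
    have ihj := ih (by omega)
    set A := Finset.univ.filter (fun x => G.edist v x = (j : ℕ∞)) with hA
    set B := Finset.univ.filter (fun x => G.edist v x = ((j + 1 : ℕ) : ℕ∞)) with hB
    set N : V → Finset V := fun x =>
      (G.neighborFinset x).filter (fun y => G.edist v y = ((j + 1 : ℕ) : ℕ∞)) with hN
    -- facts about members of A
    have hAmem : ∀ x ∈ A, G.edist v x = (j : ℕ∞) := fun x hx => (Finset.mem_filter.mp hx).2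
    have hAwalk : ∀ x ∈ A, ∃ p : G.Walk v x, p.length ≤ j := fun x hx =>
      exists_walk_length_le (le_of_eq (hAmem x hx))
    have hAS : ∀ x ∈ A, x ∈ S := by
      intro x hx
      obtain ⟨p, _⟩ := hAwalk x hx
      exact walk_mem_of_mem hS p hv
    have hlt_of_walk : ∀ x ∈ A, ∀ q : G.Walk v x, j ≤ q.length := by
      intro x hx q
      have h1 := SimpleGraph.edist_le q
      rw [hAmem x hx] at h1
      exact_mod_cast h1
    -- each x in A has at least t neighbours in the next sphere
    have hNcard : ∀ x ∈ A, t ≤ (N x).card := by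
      intro x hx
      have hbad : ((G.neighborFinset x).filter
          (fun y => ¬ G.edist v y = ((j + 1 : ℕ) : ℕ∞))).card ≤ 1 := by
        rw [Finset.card_le_one]
        intro y₁ hy₁ y₂ hy₂
        by_contra hne
        rw [Finset.mem_filter, SimpleGraph.mem_neighborFinset] at hy₁ hy₂
        obtain ⟨p, hp⟩ := hAwalk x hx
        have hle : ∀ y, G.Adj x y → ¬ G.edist v y = ((j + 1 : ℕ) : ℕ∞) →
            ∃ q : G.Walk v y, q.length ≤ j ∧ x ∉ q.support := by
          intro y hxy hyne
          have h1 : G.edist v y ≤ ((j + 1 : ℕ) : ℕ∞) := by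
            have := SimpleGraph.edist_le (p.concat hxy)
            rw [Walk.length_concat] at this
            refine le_trans this ?_
            exact_mod_cast Nat.succ_le_succ hp
          have h2 : G.edist v y < ((j : ℕ) : ℕ∞) + 1 := by
            have := lt_of_le_of_ne h1 hyne
            simpa using this
          have h3 : G.edist v y ≤ (j : ℕ∞) := (ENat.lt_add_one_iff (ENat.natCast_ne_top j)).mp h2
          obtain ⟨q, hq⟩ := exists_walk_length_le h3
          refine ⟨q, hq, ?_⟩
          intro hxq
          obtain ⟨q', hq'⟩ := exists_walk_head_lt q hxq hxy.ne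
          have := hlt_of_walk x hx q'
          omega
        obtain ⟨q₁, hq₁, hxq₁⟩ := hle y₁ hy₁.1 hy₁.2
        obtain ⟨q₂, hq₂, hxq₂⟩ := hle y₂ hy₂.1 hy₂.2
        exact no_two_short hG hj hy₁.1 hy₂.1 hne q₁ q₂ hq₁ hq₂ hxq₁ hxq₂
      have hsum := Finset.card_filter_add_card_filter_not (s := G.neighborFinset x)
        (fun y => G.edist v y = ((j + 1 : ℕ) : ℕ∞))
      have hd := hdeg x (hAS x hx)
      rw [← SimpleGraph.card_neighborFinset_eq_degree] at hd
      simp only [hN]
      omega
    -- the sets N x are pairwise disjoint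
    have hdisj : (A : Set V).PairwiseDisjoint N := by
      intro x₁ hx₁ x₂ hx₂ hne
      rw [Function.onFun, Finset.disjoint_left]
      intro y hy₁ hy₂
      simp only [hN, Finset.mem_filter, SimpleGraph.mem_neighborFinset] at hy₁ hy₂
      obtain ⟨p₁, hp₁⟩ := hAwalk x₁ hx₁
      obtain ⟨p₂, hp₂⟩ := hAwalk x₂ hx₂
      have hy : ∀ x (p : G.Walk v x), p.length ≤ j → y ∉ p.support := by
        intro x p hp hyp
        obtain ⟨q, hq⟩ := exists_walk_head_le p hyp
        have h1 := SimpleGraph.edist_le q
        rw [hy₁.2] at h1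
        have : j + 1 ≤ q.length := by exact_mod_cast h1
        omega
      exact no_two_short hG hj hy₁.1.symm hy₂.1.symm hne p₁ p₂ hp₁ hp₂ (hy _ p₁ hp₁) (hy _ p₂ hp₂)
    have hsub : A.biUnion N ⊆ B := by
      intro y hy
      rw [Finset.mem_biUnion] at hy
      obtain ⟨x, _, hy⟩ := hy
      simp only [hN, Finset.mem_filter] at hy
      rw [hB, Finset.mem_filter]
      exact ⟨Finset.mem_univ _, hy.2⟩
    calc t ^ (j + 1) = t ^ j * t := pow_succ t j
      _ ≤ A.card * t := Nat.mul_le_mul_right t ihj
      _ = A.card • t := by rw [smul_eq_mul]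
      _ ≤ ∑ x ∈ A, (N x).card := Finset.card_nsmul_le_sum _ _ _ hNcard
      _ = (A.biUnion N).card := (Finset.card_biUnion hdisj).symm
      _ ≤ B.card := Finset.card_le_card hsub


/-- Moore-type bound: a graph without short cycles, all of whose edges lie inside `S` with
`|S| < t ^ k`, has at most `|S| * t` edges. -/
lemma moore_bound (k t : ℕ) : ∀ (n : ℕ) (S : Finset V) (G : SimpleGraph V) [DecidableRel G.Adj],
    S.card = n → (∀ a b, G.Adj a b → a ∈ S ∧ b ∈ S) → NoShort k G → S.card < t ^ k →
    G.edgeFinset.card ≤ S.card * t := by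
  intro n
  induction n with
  | zero =>
    intro S G _ hcard hS _ _
    have hSe : S = ∅ := Finset.card_eq_zero.mp hcard
    have hG : G = ⊥ := by
      ext a b
      simp only [SimpleGraph.bot_adj, iff_false]
      intro hab
      have := (hS a b hab).1
      rw [hSe] at this
      simp at this
    have hE : G.edgeFinset = ∅ := SimpleGraph.edgeFinset_eq_empty.mpr hG
    rw [hE]
    simp
  | succ n ih =>
    intro S G _ hcard hS hG hlt
    by_cases hex : ∃ x ∈ S, G.degree x ≤ t
    · obtain ⟨x, hxS, hxd⟩ := hex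
      have h1 := ih (S.erase x) (G.deleteIncidenceSet x)
        (by rw [Finset.card_erase_of_mem hxS, hcard]; rfl)
        (by
          intro a b hab
          rw [SimpleGraph.deleteIncidenceSet_adj] at hab
          obtain ⟨hab, ha, hb⟩ := hab
          exact ⟨Finset.mem_erase.mpr ⟨ha, (hS a b hab).1⟩,
            Finset.mem_erase.mpr ⟨hb, (hS a b hab).2⟩⟩)
        (noShort_mono (G.deleteIncidenceSet_le x) hG)
        (by rw [Finset.card_erase_of_mem hxS]; omega)
      rw [SimpleGraph.card_edgeFinset_deleteIncidenceSet, Finset.card_erase_of_mem hxS,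
        hcard] at h1
      rw [hcard]
      have : (n + 1) * t = n * t + t := by ring
      simp only [Nat.add_sub_cancel] at h1
      omega
    · exfalso
      push Not at hex
      have hne : S.Nonempty := by
        rw [← Finset.card_pos]; omega
      obtain ⟨v, hv⟩ := hne
      have hgrow := sphere_growth k t G hG S hS (fun x hx => hex x hx) v hv k (le_refl k)
      have hsub : (Finset.univ.filter (fun x => G.edist v x = (k : ℕ∞))) ⊆ S := by
        intro x hx
        rw [Finset.mem_filter] at hx
        obtain ⟨p, _⟩ := exists_walk_length_le (le_of_eq hx.2)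
        exact walk_mem_of_mem hS p hv
      have := Finset.card_le_card hsub
      omega

end Moore

/-- **Greedy spanner** (nonnegative symmetric weights): if `|V| < t ^ k` there is a set of at most
`|V| * t` edges in which every pair `u ≠ v` is joined by a walk of weight at most
`(2k - 1) * w u v`. -/
theorem exists_spanner_of_nonneg {V : Type*} [Fintype V] [DecidableEq V] (w : V → V → ℝ)
    (hw : ∀ u v, w u v = w v u) (hw0 : ∀ u v, u ≠ v → 0 ≤ w u v) (k t : ℕ) (hk : 1 ≤ k)
    (ht : Fintype.card V < t ^ k) :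
    ∃ (E : Finset (Sym2 V)), E.card ≤ Fintype.card V * t ∧
      ∀ u v : V, u ≠ v → ∃ p : (SimpleGraph.fromEdgeSet (E : Set (Sym2 V))).Walk u v,
        (p.darts.map (fun d => w d.fst d.snd)).sum ≤ (2 * (k : ℝ) - 1) * w u v := by
  classical
  obtain ⟨H, hH1, hH2⟩ := greedy_exists w hw hw0 k hk
  refine ⟨H.edgeFinset, ?_, ?_⟩
  · have := moore_bound k t (Finset.univ : Finset V).card Finset.univ H rfl
      (fun a b _ => ⟨Finset.mem_univ _, Finset.mem_univ _⟩) hH2
      (by rw [Finset.card_univ]; exact ht)
    rwa [Finset.card_univ] at this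
  · intro u v huv
    obtain ⟨p, hp⟩ := hH1 u v huv
    have hle : H ≤ SimpleGraph.fromEdgeSet (H.edgeFinset : Set (Sym2 V)) := by
      rw [SimpleGraph.coe_edgeFinset, SimpleGraph.fromEdgeSet_edgeSet]
    refine ⟨p.mapLe hle, ?_⟩
    have := wwt_mapLe w hle p
    unfold wwt at this hp
    rw [this]
    exact hp

/-- The degenerate case of a negative weight: a star through the negative edge works, since a
walk may bounce on the negative edge arbitrarily often. -/
theorem exists_spanner_of_neg {V : Type*} [Fintype V] [DecidableEq V] (w : V → V → ℝ)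
    (hw : ∀ u v, w u v = w v u) (k t : ℕ) (ht : Fintype.card V < t ^ k)
    (a b : V) (hab : a ≠ b) (hneg : w a b < 0) :
    ∃ (E : Finset (Sym2 V)), E.card ≤ Fintype.card V * t ∧
      ∀ u v : V, u ≠ v → ∃ p : (SimpleGraph.fromEdgeSet (E : Set (Sym2 V))).Walk u v,
        (p.darts.map (fun d => w d.fst d.snd)).sum ≤ (2 * (k : ℝ) - 1) * w u v := by
  classical
  have ht0 : t ≠ 0 := by
    rintro rfl
    rcases Nat.eq_zero_or_pos k with hk0 | hk0
    · subst hk0
      simp only [pow_zero, Nat.lt_one_iff, Fintype.card_eq_zero_iff] at ht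
      exact ht.elim a
    · rw [zero_pow (by omega)] at ht
      omega
  set E : Finset (Sym2 V) := (Finset.univ : Finset V).image (fun x => s(a, x)) with hE
  refine ⟨E, ?_, ?_⟩
  · calc E.card ≤ (Finset.univ : Finset V).card := Finset.card_image_le
      _ = Fintype.card V := Finset.card_univ
      _ ≤ Fintype.card V * t := Nat.le_mul_of_pos_right _ (Nat.pos_of_ne_zero ht0)
  · set G := SimpleGraph.fromEdgeSet (E : Set (Sym2 V)) with hG
    have hadj : ∀ x, x ≠ a → G.Adj a x := by
      intro x hx
      rw [hG, SimpleGraph.fromEdgeSet_adj]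
      refine ⟨?_, hx.symm⟩
      rw [hE]
      simp
    have hto : ∀ x, ∃ p : G.Walk x a, True := by
      intro x
      by_cases hx : x = a
      · subst hx
        exact ⟨Walk.nil, trivial⟩
      · exact ⟨Walk.cons (hadj x hx).symm Walk.nil, trivial⟩
    have hbounce : ∀ m : ℕ, ∃ q : G.Walk a a, wwt w q = 2 * (m : ℝ) * w a b := by
      intro m
      induction m with
      | zero => exact ⟨Walk.nil, by simp⟩
      | succ m ih =>
        obtain ⟨q, hq⟩ := ih
        refine ⟨Walk.cons (hadj b hab.symm) (Walk.cons (hadj b hab.symm).symm q), ?_⟩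
        rw [wwt_cons, wwt_cons, hq, hw b a]
        push_cast
        ring
    intro u v _
    obtain ⟨pu, _⟩ := hto u
    obtain ⟨pv, _⟩ := hto v
    obtain ⟨m, hm⟩ := exists_nat_gt
      ((wwt w pu + wwt w pv - (2 * (k : ℝ) - 1) * w u v) / (-(2 * w a b)))
    obtain ⟨q, hq⟩ := hbounce m
    refine ⟨pu.append (q.append pv.reverse), ?_⟩
    have hwt : wwt w (pu.append (q.append pv.reverse)) =
        wwt w pu + (2 * (m : ℝ) * w a b + wwt w pv) := by
      rw [wwt_append, wwt_append, wwt_reverse w hw, hq]
    have hpos : 0 < -(2 * w a b) := by linarith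
    rw [div_lt_iff₀ hpos] at hm
    unfold wwt at hwt
    rw [hwt]
    unfold wwt at hm
    nlinarith

/-- **Greedy spanner lemma.** For a symmetric weight `w` on a finite type `V` with
`|V| < t ^ k`, there is a set `E` of at most `|V| * t` edges such that every pair `u ≠ v` is
joined in `E` by a walk of total weight at most `(2k - 1) * w u v`. -/
theorem exists_spanner {V : Type*} [Fintype V] [DecidableEq V] (w : V → V → ℝ)
    (hw : ∀ u v, w u v = w v u) (k t : ℕ) (hk : 1 ≤ k) (ht : Fintype.card V < t ^ k) :
    ∃ (E : Finset (Sym2 V)), E.card ≤ Fintype.card V * t ∧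
      ∀ u v : V, u ≠ v → ∃ p : (SimpleGraph.fromEdgeSet (E : Set (Sym2 V))).Walk u v,
        (p.darts.map (fun d => w d.fst d.snd)).sum ≤ (2 * (k : ℝ) - 1) * w u v := by
  by_cases hnn : ∀ u v, u ≠ v → 0 ≤ w u v
  · exact exists_spanner_of_nonneg w hw hnn k t hk ht
  · push Not at hnn
    obtain ⟨a, b, hab, hneg⟩ := hnn
    exact exists_spanner_of_neg w hw k t ht a b hab hneg

end Vale.Agent.H5
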